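import Mathlib
import Vale.Agent.H14.Sid.Main

/-!
# P050: Sidorenko's inequality against hosts given by monotone relations between lattices

`H` is a connected bipartite (two-colourable) graph with at least one edge on a finite vertex set
`V`.  `X` and `Y` are finite distributive lattices and `R` is a relation between them that is
monotone: `R x y`, `x ≤ x'`, `y ≤ y'` imply `R x' y'`.  The host `G = relGraph R` is the graph on
the disjoint union `X ⊕ Y` in which `x` and `y` are adjacent exactly when `R x y`
(`Vale/Agent/H14/Sid/Defs.lean`).  The statement is the inequality of the problem,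
`p(G) ^ e(H) ≤ t(H,G)`, with `t(H,G) = hom(H,G) / |V(G)| ^ |V(H)|` and
`p(G) = 2 e(G) / |V(G)| ^ 2` (real quotients), `hom(H,G)` the number of graph homomorphisms.
-/

namespace Vale.Agent.Results.P050.A_MonotoneRelationHosts

open Vale.Agent.H14.Sid

theorem result {V X Y : Type} [Fintype V] [Fintype X] [Fintype Y]
    [DistribLattice X] [DistribLattice Y]
    (H : SimpleGraph V) (hconn : H.Connected) (hbip : H.Colorable 2)
    (hedge : H.edgeSet.Nonempty)
    (R : X → Y → Prop) (hR : ∀ x x' y y', R x y → x ≤ x' → y ≤ y' → R x' y') :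
    (2 * (Nat.card (relGraph R).edgeSet : ℝ) / (Nat.card (X ⊕ Y) : ℝ) ^ 2) ^ Nat.card H.edgeSet
      ≤ (Nat.card (H →g relGraph R) : ℝ) / (Nat.card (X ⊕ Y) : ℝ) ^ Nat.card V :=
  final_statement H hconn hbip hedge R hR

end Vale.Agent.Results.P050.A_MonotoneRelationHosts
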